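import Vale.Agent.P354FW.Pt
import Vale.Agent.P354SI.One
import Vale.Agent.P354SI.Rows
import Vale.Agent.P354YH.Chain

/-!
The far density on the slabs: the rows FARW, FL and GDX.
-/

open MeasureTheory Set Filter

noncomputable section

namespace Vale.Agent.P354FW

open Vale.Agent.P354XG Vale.Agent.P354XD Vale.Agent.P354XR Vale.Agent.P354XI Vale.Agent.P354Z
open Vale.Agent.P354XT Vale.Agent.P354BO Vale.Agent.P354IF
open Vale.Agent.P354SI hiding Gam
open Vale.Agent.P354YH (wt sm Sys sm_mono sm_nn sm_mul sm_add)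
open Vale.Agent.P354FC (lr)
open Vale.Agent.P354FQ (CUT FARS)
open Vale.Agent.P354CO (GT GT_anti)

variable {P : Pr} {σ : St P} {a : ℝ} {c c1 c2 c3 : ℝ → ℝ} {F F1 F2 F3 : E6 → ℝ}

/-- Far radial weights, densities which are continuous in the far part, the integrand. -/
def Wf (σ : St P) (c : ℝ → ℝ) : Prop :=
  Continuous c ∧ ∃ x y, P.c.R1 + 3 ≤ x ∧ y < σ.R2 ∧ ∀ r, r ∉ Icc x y → c r = 0
def Cf (σ : St P) (F : E6 → ℝ) : Prop := ContinuousOn F {x ∈ σ.E.O1 | Est.Fa σ.c x}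
def It (a : ℝ) (c : ℝ → ℝ) (F : E6 → ℝ) : Prop :=
  Integrable fun x : E6 => bp (x.1 - a) * c x.2.1 * χ x.2.2 ^ 2 * F x

theorem r0_lt (σ : St P) : P.c.r0 < P.c.R1 + 3 := by
  have a : P.c.r0 + 3 * P.c.d < P.c.M + √(P.c.M ^ 2 - P.c.a ^ 2) := σ.ok.rp
  have b : 10 * P.c.M + 10 ≤ P.c.R1 := σ.ok.R1
  have := Real.sqrt_le_iff.2 ⟨σ.M0.le, sub_le_self (P.c.M ^ 2) (sq_nonneg P.c.a)⟩
  linarith [σ.M0, σ.d_pos]

theorem Wf.wc (h : Wf σ c) : σ.Wc c :=
  let ⟨a, x, y, b1, b2, b3⟩ := h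
  ⟨a, x, y, (r0_lt σ).trans_le b1, b2, b3⟩

theorem fa_of (σ : St P) {x : E6} (h : P.c.R1 + 3 ≤ x.2.1) (t : 0 ≤ x.1) : Est.Fa σ.c x := by
  have r := σ.r0_pos.trans ((r0_lt σ).trans_le h)
  exact ⟨h, by unfold uu; positivity⟩

theorem sl_intF (ha : σ.Sa a) (hc : Wf σ c) (hF : Cf σ F) : It a c F := by
  obtain ⟨hc0, p, q, b1, b2, b3⟩ := hc
  have k : IsCompact (Icc a (a + 2) ×ˢ Icc p q ×ˢ P354BO.K : Set E6) :=
    isCompact_Icc.prod (isCompact_Icc.prod K_cpt)
  have t : 2 ≤ P.c.t1 := σ.ok.t1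
  have s : (Icc a (a + 2) ×ˢ Icc p q ×ˢ P354BO.K : Set E6) ⊆ {x ∈ σ.E.O1 | Est.Fa σ.c x} :=
    fun x hx => ⟨(σ.box (K_ne hx.2.2) (by linarith [ha.1, hx.1.1]) (by linarith [ha.2, hx.1.2])
      (by linarith [hx.2.1.1, r0_lt σ]) (by linarith [hx.2.1.2])).1,
      fa_of σ (b1.trans hx.2.1.1) (by linarith [ha.1, hx.1.1])⟩
  refine (integrableOn_iff_integrable_of_support_subset (s := Icc a (a + 2) ×ˢ Icc p q ×ˢ P354BO.K)
    fun x hx => ?_).1 (ContinuousOn.integrableOn_compact k (ContinuousOn.mul ?_ (hF.mono s)))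
  · refine ⟨?_, ?_, ?_⟩ <;> by_contra d <;> refine hx ?_ <;> beta_reduce
    · rw [bp_out (x := x.1 - a) fun e => d ⟨by linarith [e.1], by linarith [e.2]⟩]; ring
    · rw [b3 _ d]; ring
    · rw [χ_out d]; ring
  · exact (((bp_sm.continuous.comp (continuous_fst.sub continuous_const)).mul
      (hc0.comp continuous_snd.fst)).mul ((χ_sm.continuous.comp continuous_snd.snd).pow 2)
      ).continuousOn

theorem sl_mul (k : ℝ) : sl a c (fun x => k * F x) = k * sl a c F := by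
  simp only [P354SI.sl, ← integral_const_mul]
  exact integral_congr_ae (.of_forall fun x => by ring)

theorem sj_mul (j : ℕ) (k : ℝ) : σ.sj j c (fun x => k * F x) = k * σ.sj j c F := by
  unfold St.sj
  split_ifs
  exacts [sl_mul k, (mul_zero _).symm]

/-- Pointwise inequalities on the support of the weight are integrated. -/
theorem sl_leF {k1 k2 k3 : ℝ} (ha : σ.Sa a) (hc : σ.Wc c) (i : It a c F) (i1 : It a c1 F1)
    (i2 : It a c2 F2) (i3 : It a c3 F3)
    (n : ∀ x : E6, 0 ≤ k1 * (c1 x.2.1 * F1 x) + k2 * (c2 x.2.1 * F2 x) + k3 * (c3 x.2.1 * F3 x))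
    (h : ∀ x ∈ σ.E.O1, An x → a ≤ x.1 → x.1 ≤ a + 2 → c x.2.1 ≠ 0 → c x.2.1 * F x ≤
      k1 * (c1 x.2.1 * F1 x) + k2 * (c2 x.2.1 * F2 x) + k3 * (c3 x.2.1 * F3 x)) :
    sl a c F ≤ k1 * sl a c1 F1 + k2 * sl a c2 F2 + k3 * sl a c3 F3 := by
  have i1 := i1.const_mul k1
  have i2 := i2.const_mul k2
  have i3 := i3.const_mul k3
  simp only [P354SI.sl, ← integral_const_mul]
  rw [← integral_add' i1 i2, ← integral_add' (i1.add i2) i3]
  refine integral_mono i ((i1.add i2).add i3) fun x => ?_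
  have w := mul_nonneg (bp_nonneg (x.1 - a)) (sq_nonneg (χ x.2.2))
  simp only [Pi.add_apply]
  by_cases e : bp (x.1 - a) * c x.2.1 * χ x.2.2 ^ 2 = 0
  · rw [e, zero_mul]
    linarith [mul_nonneg w (n x)]
  · have p := St.pt_of ha hc e
    linarith [mul_le_mul_of_nonneg_left (h x p.1 p.2.1 p.2.2.1 p.2.2.2 fun z => e (by
      rw [z]; ring)) w]

theorem cf_q (α : ℝ) (n : ℕ) (f : Sm (on σ.E.O2)) :
    Cf σ fun x => x.2.1 ^ α * q2 (lr σ.c σ.E) x n f :=
  (continuous_snd.fst.continuousOn.rpow_const fun _ hx =>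
    .inl (σ.r0_pos.trans ((r0_lt σ).trans_le hx.2.1)).ne').mul
    ((q2_cont σ.is.shape.co2.op _ n f).mono fun x hx => (σ.is.shape.up x hx.1 hx.2).1)

theorem cf_Fi (i s : ℕ) : Cf σ (Fi P i s σ) :=
  (continuousOn_finsetSum _ fun _ _ => continuousOn_finsetSum _ fun _ _ =>
    continuousOn_finsetSum _ fun _ _ => cf_q _ _ _).add
    (continuousOn_finsetSum _ fun _ _ => cf_q _ _ _)

theorem cf_FW (n : ℕ) : Cf σ (FW P n σ) := by
  unfold FW
  simp only [Finset.mul_sum]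
  exact (continuousOn_finsetSum _ fun _ _ => continuousOn_finsetSum _ fun _ _ =>
    continuousOn_finsetSum _ fun _ _ => continuousOn_finsetSum _ fun _ _ => cf_q _ _ _).add
    (continuousOn_finsetSum _ fun _ _ => cf_q _ _ _)

theorem FW_nn (n : ℕ) {x : E6} (r : 0 < x.2.1) : 0 ≤ FW P n σ x := by
  have := fun (α : ℝ) i f => mul_nonneg (Real.rpow_nonneg r.le α)
    (q2_nonneg (X := lr σ.c σ.E) (x := x) i f)
  unfold FW
  rw [Finset.mul_sum]
  exact add_nonneg (Finset.sum_nonneg fun _ _ => Finset.sum_nonneg fun _ _ =>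
    Finset.sum_nonneg fun _ _ => Finset.sum_nonneg fun _ _ => this ..)
    (Finset.sum_nonneg fun _ _ => this ..)

theorem FW_le (n : ℕ) {x : E6} (r : 0 < x.2.1) :
    FW P n σ x ≤ ∑ i : Fin (i0 P + 1), Fi P i (n - i) σ x := by
  rw [Fin.sum_univ_eq_sum_range fun i => Fi P i (n - i) σ x]
  unfold FW Fi
  rw [Finset.sum_add_distrib, Finset.mul_sum]
  exact add_le_add_right (Finset.single_le_sum (f := fun i => ∑ g, x.2.1 ^ (-2 : ℝ) *
    q2 (lr σ.c σ.E) x i (gq P g σ)) (fun i _ => Finset.sum_nonneg fun _ _ =>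
      mul_nonneg (by positivity) (q2_nonneg ..)) (Finset.self_mem_range_succ _)) _

theorem lay_nn (R r : ℝ) : 0 ≤ lay R r := mul_nonneg (up_nonneg ..) (dn_nonneg ..)

theorem lay_FW (n : ℕ) (R : ℝ) (x : E6) : 0 ≤ lay R x.2.1 * FW P n σ x := by
  rcases lt_or_ge 0 x.2.1 with r | r
  · exact mul_nonneg (lay_nn ..) (FW_nn n r)
  · rw [lay, up, Real.smoothTransition.zero_of_nonpos (div_nonpos_of_nonpos_of_nonneg
      (by linarith [abs_nonneg R]) (by linarith [abs_nonneg R])), zero_mul, zero_mul]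

theorem gam_nn (n R) (σ : St P) (j) : 0 ≤ Gam P n R σ j :=
  mul_nonneg (by positivity) (St.sj_nn (lay_FW n R))

theorem lay_out {R r : ℝ} (h : 0 < R) (e : r ∉ Icc (R / 2) (3 * R)) : lay R r = 0 := by
  rw [lay, abs_of_pos h]
  rcases not_and_or.1 e with e | e
  · exact mul_eq_zero_of_left (up_zero (by linarith) (not_le.1 e).le) _
  · exact mul_eq_zero_of_right _ (dn_zero (by linarith) (not_le.1 e).le)

theorem lay_c (R : ℝ) : Continuous (lay R) := (up_sm _ _).continuous.mul (dn_sm _ _).continuous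

theorem lay_le (R r : ℝ) : lay R r ≤ 1 :=
  mul_le_one₀ (P354XT.up_le ..) (dn_nonneg ..) (dn_le ..)

/-- The far estimate for the density of the layer. -/
theorem farw {m : ℕ} (b : Big 0 P m) (hc : CUT P) (h : FARS P m) : FARW P (GT P m) := by
  intro n hn
  obtain ⟨K, T, ck⟩ := hc
  have f := form b.ok (GT_anti P m) gam_nn
  have hi : ∀ i : Fin (i0 P + 1), i.val ≤ n ∧ i.val ≤ m + 6 := fun i => by
    have := i.2
    have := b.hm
    unfold i0 at *
    omega
  choose Rm h using fun i : Fin (i0 P + 1) =>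
    h K T ck i (n - i) n (hi i).2 (by have := (hi i).1; omega)
  obtain ⟨R0, r1, r2, r3⟩ : ∃ R0, (∀ i, Rm i ≤ R0) ∧ P.c.R1 + 3 ≤ 4 * R0 ∧ 1 ≤ R0 := by
    obtain ⟨y, hy⟩ := (finite_range Rm).bddAbove
    exact ⟨max y (|P.c.R1| + 1), fun i => le_max_of_le_left (hy ⟨i, rfl⟩), by
      linarith [le_max_right y (|P.c.R1| + 1), le_abs_self P.c.R1, abs_nonneg P.c.R1],
      le_max_of_le_right (by linarith [abs_nonneg P.c.R1])⟩
  choose R1 B B0 h using fun i => h i R0 (r1 i)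
  obtain ⟨Y, hY⟩ := (finite_range R1).bddAbove
  obtain ⟨κ, κ0, hκ⟩ : ∃ κ : ℕ → ℝ, (∀ i, 0 < κ i) ∧ ∀ i, κ i = 2 ^ i * (2048 * R0 ^ 2) :=
    ⟨_, fun i => by positivity, fun _ => rfl⟩
  refine ⟨4 * R0, Y, ∑ i : Fin (i0 P + 1), κ i * B i,
    Finset.sum_nonneg fun i _ => mul_nonneg (κ0 i).le (B0 i), fun Rc => ?_⟩
  choose C C0 h using fun i => h i (max R0 (8 * Rc)) (le_max_left _ _)
  have C1 : 0 ≤ ∑ i : Fin (i0 P + 1), κ i * C i :=
    Finset.sum_nonneg fun i _ => mul_nonneg (κ0 i).le (C0 i)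
  refine ⟨0, _, C1, ((eventually_all.2 h).and ((ev_R n (Rc + 1)).filter_mono inf_le_left)).mono
    fun σ ⟨h, r⟩ c c1 c2 c3 k hk => ?_⟩
  have w : Wf σ c := ⟨c1, _, _, r2, by linarith, c3⟩
  have s : ∀ r, c r ≠ 0 → r ∈ Icc (4 * R0) Rc := fun r e => by_contra fun d => e (c3 r d)
  have a1 : ∀ j, σ.sj j c (FW P n σ) ≤ ∑ i : Fin (i0 P + 1), σ.sj j c (Fi P i (n - i) σ) :=
    fun j => by
      unfold St.sj
      split_ifs with e
      swap
      · simp
      have sa := σ.sa (e.trans (Nat.le_add_right _ 2))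
      have it := fun i : Fin (i0 P + 1) => sl_intF sa w (cf_Fi i (n - i))
      simp only [P354SI.sl]
      rw [← integral_finsetSum _ fun i _ => it i]
      refine integral_mono (sl_intF sa w (cf_FW n)) (integrable_finsetSum _ fun i _ => it i)
        fun x => ?_
      beta_reduce
      rw [← Finset.mul_sum]
      by_cases z : c x.2.1 = 0
      · simp [z]
      · exact mul_le_mul_of_nonneg_left (FW_le n (by linarith [(s _ z).1]))
          (mul_nonneg (mul_nonneg (bp_nonneg _) (c2 _).1) (sq_nonneg _))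
  have a2 : ∀ i : Fin (i0 P + 1), sm P.Q k (fun j => σ.sj j c (Fi P i (n - i) σ)) ≤
      κ i * B i * sm P.Q k (fun j => (sys P (GT P m) (Gam P)).B n Y σ j + fy P P.g Y σ j) +
        κ i * C i * σ.D := fun i => by
    have := h i k hk c (fun x => (κ i)⁻¹ * Fi P i (n - i) σ x) w.wc c2 (fun r e => (s r e).1)
      (continuousOn_const.mul (cf_Fi _ _)) fun x e1 e2 e3 e4 e5 e6 => by
        have q := (s _ e4)
        have t : 2 ≤ P.c.t1 := σ.ok.t1
        have p := ck.p1 x (by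
          rw [(P354FQ.fm_ok P).rr_eq, e3]; linarith [le_max_right R0 (8 * Rc), q.2])
        rw [e2] at p
        have := fi_le ck.cut i (n - i) x (by
          rw [(P354FQ.fm_ok P).uu_eq]
          exact add_nonneg (by linarith) (div_nonneg (by positivity) (by linarith [q.1]))) r3 p
        rw [e1, ← hκ] at this
        rw [mul_left_comm, inv_mul_le_iff₀ (κ0 i)]
        exact this
    simp only [sj_mul] at this
    rw [sm_mul, inv_mul_le_iff₀ (κ0 i), Nat.add_sub_cancel' (hi i).1] at this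
    have y := hY ⟨i, rfl⟩
    have z := mul_le_mul_of_nonneg_left (sm_mono P.Q k fun j => add_le_add
      ((f.xm (le_refl n) y σ j).trans (le_add_of_nonneg_left (f.y0 (n - 1) Y σ j)))
      (f.ym (le_refl P.g) y σ j)) (mul_nonneg (κ0 i).le (B0 i))
    exact this.trans ((mul_add ..).trans_le (add_le_add ((mul_assoc ..).symm.trans_le z)
      (mul_assoc ..).ge))
  refine (sm_mono _ _ a1).trans (le_trans (le_of_eq ?_)
    ((Finset.sum_le_sum (s := Finset.univ) fun i _ => a2 i).trans ?_))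
  · simp only [sm, Finset.mul_sum]
    exact Finset.sum_comm
  · rw [Finset.sum_add_distrib, ← Finset.sum_mul, ← Finset.sum_mul]
    refine add_le_add_right (mul_le_mul_of_nonneg_left (le_add_of_nonneg_right (sm_nn _ _ fun j =>
      add_nonneg ?_ (f.hn ..))) C1) _
    unfold Sys.lo'
    split_ifs
    exacts [le_rfl, f.Bn ..]

variable {G : ℕ → Filter (St P)}

/-- The layers are small. -/
theorem fl (hP : P.Ok) (hG : Antitone G) (h : FARW P G) : (sys P G (Gam P)).FL := by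
  intro n hn
  have f := form hP hG gam_nn
  obtain ⟨R0, R1, B, B0, h⟩ := h n hn
  refine ⟨R1, fun θ θ0 => ?_⟩
  have t : Tendsto (fun x : ℝ => x ^ (-(1 / 20) : ℝ) * B) atTop (nhds (0 * B)) :=
    (tendsto_rpow_neg_atTop (by norm_num)).mul_const B
  obtain ⟨R2, h2⟩ := eventually_atTop.1 (((t.eventually (ge_mem_nhds (by rwa [zero_mul]))).and
    (eventually_ge_atTop (2 * R0))).and (eventually_ge_atTop 1))
  refine ⟨R2, fun R hR => ?_⟩
  obtain ⟨⟨e1, e2⟩, e3⟩ := h2 R hR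
  obtain ⟨R'', C, C0, h⟩ := h (3 * R)
  refine ⟨R'', C, C0, h.mono fun σ h k hk => ?_⟩
  have p : 0 < R := by linarith
  have := mul_le_mul_of_nonneg_left (h (lay R) (lay_c R) (fun r => ⟨lay_nn .., lay_le ..⟩)
    (fun r e => lay_out p fun d => e ⟨by linarith [d.1], d.2⟩) k hk)
    (Real.rpow_nonneg (abs_nonneg R) (-1 / 20))
  rw [← sm_mul, mul_add, abs_of_pos p, ← mul_assoc] at this
  rw [← neg_div] at e1
  refine le_trans (le_of_eq ?_) (this.trans (add_le_add (mul_le_mul_of_nonneg_right e1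
    (sm_nn _ _ fun j => add_nonneg (f.Bn ..) (fy_nn ..))) (mul_le_of_le_one_left
      (mul_nonneg C0 (add_nonneg (f.D0 _) (sm_nn _ _ fun j => add_nonneg ?_ (f.hn ..))))
      (Real.rpow_le_one_of_one_le_of_nonpos e3 (by norm_num)))))
  · change sm P.Q k (Gam P n R σ) = _
    unfold Gam
    rw [abs_of_pos p]
  · unfold Sys.lo'
    split_ifs
    exacts [le_rfl, f.Bn ..]

/-- The flux is bounded by the far density. -/
theorem gdx (hP : P.Ok) (hG : Antitone G) (h1 : NRT P) (h2 : FRT P G) : GDX P G (Gam P) := by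
  intro n hn
  have f := form hP hG gam_nn
  obtain ⟨A, R0, A0, h1⟩ := h1 n hn
  obtain ⟨B, R0', B0, h2⟩ := h2 n hn
  refine ⟨2 * (A * B), max (max R0 R0') (2 * (|P.rb| + |P.c.R1| + 3)), by positivity,
    fun R hR => ?_⟩
  obtain ⟨C, C0, h1⟩ := h1 R (le_of_max_le_left (le_of_max_le_left hR))
  obtain ⟨D, D0, h2⟩ := h2 R (le_of_max_le_right (le_of_max_le_left hR))
  have r := le_of_max_le_right hR
  have r1 := le_abs_self P.rb
  have r2 := le_abs_self P.c.R1
  have r3 := abs_nonneg P.rb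
  have r4 := abs_nonneg P.c.R1
  have p : 0 < R := by linarith
  refine ⟨3 * R, 2 * (A * D + C), by positivity,
    ((h2.and (ev_sys h1)).and (ev_sys (ev_R n (3 * R + 2)))).mono fun σ ⟨⟨h2, h1⟩, q⟩ j hj => ?_⟩
  have w : Wf σ (lay R) := ⟨lay_c R, R / 2, 3 * R, by linarith, by linarith, fun r => lay_out p⟩
  have sa := σ.sa (hj.trans (Nat.le_add_right _ 2))
  have x := St.wc_x hP σ (3 * R)
  have g := (fh_pos σ j).le
  have ρ := Real.rpow_nonneg p.le (-1 / 20)
  have a : ∀ b, σ.sj j (lay R) (σ.gd b (P.n b) R (σ.f b (List.replicate (n - 1 - P.n b) 0))) ≤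
      A * B * R ^ (-1 / 20 : ℝ) * σ.sj j (lay R) (FW P n σ) + (A * D + C) * fx P (n - 1) (3 * R) σ j +
        C * fh P σ j * fx P n (3 * R) σ j := fun b => by
    simp only [fx, St.sj_eq hj]
    refine sl_leF sa w.wc (St.sl_int sa w.wc (St.cn_gd _ _ _)) (sl_intF sa w (cf_FW n))
      (St.sl_int sa x (σ.cn_eta _)) (St.sl_int sa x (σ.cn_eta _)) (fun y => ?_)
      fun y y1 y2 y3 y4 y5 => ?_
    · have := lay_FW (σ := σ) n R y
      have := mul_nonneg (up_nonneg (P.rb - 1) P.rb y.2.1) (St.out_nn (σ := σ) (3 * R) y.2.1)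
      have := σ.eta_nn n y
      have := σ.eta_nn (n - 1) y
      positivity
    · have z : y.2.1 ∈ Icc (R / 2) (3 * R) := by_contra fun d => y5 (lay_out p d)
      have l : Ly σ R j y := ⟨hj, y1, y2, ⟨y3, y4⟩, z⟩
      rw [up_one (sub_one_lt _) (by linarith [z.1]), St.out_one z.2 (by linarith [z.2])]
      have e := mul_le_mul_of_nonneg_left (h1 j y l _ (h2 j y l) b) (lay_nn R y.2.1)
      have := σ.eta_nn n y
      have := σ.eta_nn (n - 1) y
      have := mul_le_of_le_one_left (show 0 ≤ (A * D + C) * σ.E.eta (n - 1) y +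
        C * fh P σ j * σ.E.eta n y by positivity) (lay_le R y.2.1)
      linarith
  have l : fx P (n - 1) (3 * R) σ j ≤ (sys P G (Gam P)).lo n (3 * R) σ j := by
    unfold Sys.lo
    split_ifs with e
    · rw [show n = P.n0 from e]; exact f.xy ..
    · exact le_add_of_nonneg_left (f.y0 ..)
  have u : fh P σ j * fx P n (3 * R) σ j ≤ (sys P G (Gam P)).hy n (3 * R) σ j :=
    mul_le_mul_of_nonneg_left (f.xy ..) g
  have v := mul_nonneg (mul_nonneg A0 D0) (f.hn n (3 * R) σ j)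
  have l' := mul_le_mul_of_nonneg_left l (show 0 ≤ A * D + C by positivity)
  have u' := mul_le_mul_of_nonneg_left u C0
  have e : fG P n R σ j = ∑ b, σ.sj j (lay R)
      (σ.gd b (P.n b) |R| (σ.f b (List.replicate (n - 1 - P.n b) 0))) := rfl
  rw [e, Gam, abs_of_pos p, Fintype.sum_bool]
  linarith [a true, a false]

end Vale.Agent.P354FW
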