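import Vale.Agent.P354FQ.Pw
import Vale.Agent.P354YK.Tm2
import Vale.Agent.P354SI.Rows

/-!
The cut offs of the family of all far charts.
-/

noncomputable section

namespace Vale.Agent.P354FW

open Vale.Agent.P354SI Vale.Agent.P354FQ Vale.Agent.P354YK

theorem cut_of {P : Pr} (h : P.c.Ok) : CUT P := by
  have d := h.del
  have w : ∀ j : Ix P, 0 < j.σ.c.cw := fun j => j.σ.ok.cw.1
  have b : ∀ j : Ix P, Bend j.R0 j.U ((j.U / 4) ^ 2 + 4 / j.σ.c.cw) (bend (j.U / 4)) := fun j =>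
    bend_ok (by linarith [j.ge.1]) (by linarith [j.ge.1, j.h4]) (by linarith)
      (le_add_of_nonneg_right (div_pos four_pos (w j)).le)
  have g : (fm P).Gd P.c.del fun j => (j.U / 4) ^ 2 + 4 / j.σ.c.cw :=
    ⟨fun j => j.σ.ok, fun j => j.σ.is.shape, fun j => j.ge.2.1, fun j => j.h2,
      ⟨d.1, by linarith [d.2]⟩, fun j => j.h3, fun j => by
        change 4 ≤ (_ + _) * j.σ.c.cw
        rw [add_mul, div_mul_cancel₀ _ (w j).ne']
        exact le_add_of_nonneg_left (mul_nonneg (sq_nonneg _) (w j).le)⟩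
  have R : ∀ x : (ch P).Pt, 0 < (jx x).R0 := fun x => by linarith [(jx x).ge.1]
  have r := (fm_ok P).rr_pos
  have p : ∀ x : (ch P).Pt, (ch P).rr x ≤ (jx x).U / 4 →
      (ch P).rr x ^ 2 ≤ 2 * bend ((jx x).U / 4) ((ch P).rr x) := fun x e => by
    linarith [bend_ge (r x) e]
  refine ⟨(fm_ok P).cut P.c.del (fun j => bend (j.U / 4)) _ fun _ => 0, _,
    (fm_ok P).cut_is d.1 g.th.2 (fun _ => le_rfl) b, (fm_ok P).tm_is g, fun _ => rfl, fun _ => rfl,
    fun x a e => chi_one d.1 (R x) a e, fun x e => (lay_ne d.1 (R x) (r x) e).2.2.imp le_of_lt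
      le_of_lt, fun x e => ?_, p, fun x => ((b (jx x)).le _ (ch_is.dom x).1).2.2.2,
    fun c _ U => (U / 4) ^ 2 + 4 / c.cw, fun _ => le_rfl⟩
  have a := p x (by linarith [(jx x).ge.1, (jx x).h4])
  have c := pow_le_pow_left₀ (div_pos (r x) (mul_pos (by norm_num) (R x))).le
    (div_le_self (r x).le (show 1 ≤ 8 * (jx x).R0 by linarith [(jx x).ge.1])) 2
  change _ ≤ 4 * bend ((jx x).U / 4) ((ch P).rr x)
  linarith [sq_nonneg ((ch P).rr x)]

theorem cut : ROW fun P _ => CUT P := ⟨0, fun _ _ b => cut_of b.c⟩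

end Vale.Agent.P354FW
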