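import Vale.Agent.P354FW.Far
import Vale.Agent.P354YF.Fte4
import Vale.Agent.P354FA.Nil

/-!
The far estimate for the density which bounds the bulk at bounded frequencies.
-/

open Set Filter

noncomputable section

namespace Vale.Agent.P354FW

open Vale.Agent.P354XG Vale.Agent.P354XD Vale.Agent.P354XR Vale.Agent.P354XI Vale.Agent.P354Z
open Vale.Agent.P354XT Vale.Agent.P354YF
open Vale.Agent.P354SI hiding Gam
open Vale.Agent.P354XZ (Ch Cut Gi Zf Lm Lm_V Lm_G D_nn Z_nn)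
open Vale.Agent.P354XZ.NF (nz)
open Vale.Agent.P354YH (sm sm_mono sm_nn sm_mul)
open Vale.Agent.P354FC (lr FD FARQ ix pw)
open Vale.Agent.P354FQ (fm fm_ok ch vw pt jx qb uq CUT FARS)
open Vale.Agent.P354CO (GT GT_anti)

section
variable {A : Type} [CommRing A] [Algebra ℂ A] {C : Ch A} (h : C.Is) {x : C.Pt} {K : Cut C}
  (k : K.Is) (u0 : 0 ≤ C.uu x)
include h k u0

theorem Z_ge' (g : Fin 9 ⊕ Fin 2) : C.at' (C.mon 0 0 (14 / 5)) x * C.rr x ^ (-9 / 10 : ℝ) ≤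
    2048 * C.at' (Zf C K.p 0 (.inr g)) x := by
  refine le_trans ?_ (mul_le_mul_of_nonneg_right (show (8 : ℝ) ≤ 2048 by norm_num) (Z_nn h k x _))
  have a : C.at' (C.mon 0 0 (14 / 5)) x * C.rr x ^ (-9 / 10 : ℝ) ≤
      8 * C.at' (C.mon (-17 / 20) (14 / 5 - 0) 0) x :=
    mon_ge h u0 (by norm_num) (by norm_num) (by norm_num) (by norm_num)
  rcases g with g | g
  · exact mon_ge h u0 (a := -17 / 20) (b := 46 / 25) (e := 24 / 25 - 0) (by norm_num)
      (by norm_num) (by norm_num) (by norm_num)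
  · fin_cases g
    · refine a.trans (mul_le_mul_of_nonneg_left ?_ (by norm_num))
      exact le_mul_of_one_le_left ((P354YS.ps_mon h ..).at h x).le (p_one h k)
    · exact a

theorem D_ge' (hp : C.rr x ^ 2 ≤ 2 * C.at' K.p x) (i : Fin 5) :
    C.at' (C.mon 0 0 (14 / 5)) x * C.rr x ^ (2 * pw (i.castAdd 5) - 9 / 10) ≤
      2048 * C.at' (C.Dw K.p 0 i) x := by
  have r := one_le_rr h x
  have a : ∀ β : ℝ, β ≤ (if i.val ≤ 1 then 63 / 20 else 0) →
      C.at' (C.mon 0 0 (14 / 5)) x * C.rr x ^ β ≤ 2048 * C.at' (C.Dw K.p 0 i) x := fun β e =>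
    (mul_le_mul_of_nonneg_left (Real.rpow_le_rpow_of_exponent_le r e)
      ((P354YS.ps_mon h ..).at h x).le).trans ((D_ge h k u0 le_rfl (by
        rw [div_pow]; nlinarith [sq_nonneg (C.rr x)]) i).trans_eq (by ring))
  have b : ∀ b e : ℝ, 0 ≤ b → b ≤ 3 → b + e = 14 / 5 → ∀ y, 0 ≤ y →
      C.at' (C.mon 0 0 (14 / 5)) x * C.rr x ^ (2 * 1 - 9 / 10 : ℝ) ≤
        2048 * (C.at' (C.mon 1 0 0) x * C.at' (C.mon (3 / 20) b e) x + y) := fun b e b0 b3 s y y0 => by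
    have := mon_ge h u0 (a := 1 + 3 / 20) (a' := 2 * 1 - 9 / 10) (b := 0 + b) (e := 0 + e)
      (by norm_num) (by linarith) (by linarith) (by linarith)
    have p := ((P354YS.ps_mon h (1 + 3 / 20) (0 + b) (0 + e)).at h x).le
    rw [at_mon_mul h]
    linarith
  have d := fun i => ((P354YS.ps_Dd h (P354YL.ps_p k) 0 i).at h x).le
  fin_cases i
  · exact a (2 * 2 - 9 / 10) (by norm_num)
  · exact a (2 * 2 - 9 / 10) (by norm_num)
  · exact b (14 / 5 - 0) 0 (by norm_num) (by norm_num) (by norm_num) _ (d 2)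
  · exact b (17 / 10 - 0) (11 / 10) (by norm_num) (by norm_num) (by norm_num) _ (d 3)
  · exact a (2 * 0 - 9 / 10) (by norm_num)

end

variable {P : Pr}

theorem st {a : ℝ} {s : (fm P).A} (hs : (ch P).Sy a s) (n : ℕ) : ∃ B, 0 ≤ B ∧
    ∀ (u : (fm P).A) (x : (ch P).Pt) (β W L : ℝ), uq x * (ch P).rr x ^ (β - 2 * a) ≤ 2048 * W →
      W * (ch P).jet n u x ^ 2 ≤ L → uq x * ((pt x).2.1 ^ β *
        q2 (lr (jx x).σ.c (jx x).σ.E) (pt x) n ((s * u) (jx x))) ≤ B * L := by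
  have h := (fm_ok P).is
  obtain ⟨K, K0, hK⟩ := sy_jet h hs n
  refine ⟨2 ^ n * K ^ 2 * 2048, by positivity, fun u x β W L e1 e2 => ?_⟩
  have r := rr_pos h x
  have q := (q2_sl (fm_ok P) x n (s * u)).trans (mul_le_mul_of_nonneg_left
    ((vl_sl_le h n _).trans (pow_le_pow_left₀ (jet0 ..) (hK u x) 2)) (by positivity))
  have u0 : 0 ≤ uq x := ((P354YS.ps_mon h ..).at h x).le
  have e : (ch P).rr x ^ (β - 2 * a) = (ch P).rr x ^ β * ((ch P).rr x ^ (-a)) ^ 2 := by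
    rw [← Real.rpow_natCast, ← Real.rpow_mul r.le, ← Real.rpow_add r]
    exact congrArg _ (by push_cast; ring)
  rw [e] at e1
  rw [← (fm_ok P).rr_eq x]
  have a1 := mul_le_mul_of_nonneg_left q (mul_nonneg u0 (Real.rpow_nonneg r.le β))
  have a2 := mul_le_mul_of_nonneg_left e1
    (show 0 ≤ 2 ^ n * K ^ 2 * (ch P).jet n u x ^ 2 by positivity)
  have a3 := mul_le_mul_of_nonneg_left e2 (show 0 ≤ 2 ^ n * K ^ 2 * 2048 by positivity)
  refine (mul_assoc ..).symm.trans_le (a1.trans ?_)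
  linarith

theorem qb_eq (K : Cut (ch P)) (n s : ℕ) (x : (ch P).Pt) :
    qb K n s x = Lm K ((fm P).nf.df (fm P).nf0 (ch P)) (vw P) 0 n 0 s x := rfl

/-- The bound for one entry. -/
def Bq (n : ℕ) (β : ℝ) (f : (fm P).A) : Prop := ∃ B, 0 ≤ B ∧ ∀ K : Cut (ch P), K.Is →
  ∀ x : (ch P).Pt, 0 ≤ (ch P).uu x → (ch P).rr x ^ 2 ≤ 2 * (ch P).at' K.p x →
    uq x * ((pt x).2.1 ^ β * q2 (lr (jx x).σ.c (jx x).σ.E) (pt x) n (f (jx x))) ≤
      B * (10 ^ n * qb K n 0 x)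

theorem dd_V (i : Fin 5) :
    dd (fm P) (.inr (i.natAdd 8)) = nz (ch P) (-(2 - (i : ℕ))) * vw P [] i := by
  have v : vw P [] i = nz (ch P) (2 - (i : ℕ)) * dd (fm P) (.inr (i.natAdd 8)) :=
    (congrFun (P354FA.Vw_nil ..) i).trans (V_eq dd_s i)
  rw [v, ← mul_assoc, ← nz_add, neg_add_cancel, nz_zero, one_mul]

theorem bq_V (n : ℕ) (i : Fin 5) :
    Bq n (2 * pw (i.castAdd 5) - 9 / 10) (dd (fm P) (.inr (i.natAdd 8))) := by
  have h := (fm_ok P).is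
  obtain ⟨B, B0, hB⟩ := st (sy_nz h (-(2 - (i : ℕ)))) n
  refine ⟨B, B0, fun K k x u0 p => ?_⟩
  have a := Lm_V (U := (fm P).nf.df (fm P).nf0 (ch P)) (Vw := vw P) (l := 0) (s := 0) h k x n 0 []
    le_rfl i
  rw [dd_V, qb_eq]
  exact hB _ x _ _ _ (by rw [mul_zero, sub_zero]; exact D_ge' h k u0 p i) a

theorem bq_G (n : ℕ) {a β : ℝ} {s f : (fm P).A} (j : Fin 9 ⊕ Fin 2) (t : (ch P).Sy a s)
    (b : β - 2 * a = -9 / 10) (e : f =
      s * gf (fm P).kc.N (fm P).kc.Ni (ch P).ri (dd (fm P)) (fm P).al (.inr j)) : Bq n β f := by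
  have o := fm_ok P
  obtain ⟨B, B0, hB⟩ := st t n
  refine ⟨B, B0, fun K k x u0 p => ?_⟩
  rw [e, ← at_gf o.cmp (dd_n o) (dd_m o) dd_s]
  exact hB _ x _ _ _ (by rw [b]; exact Z_ge' o.is k u0 j) (Lm_G o.is k x n 0 0 (.inr j))

theorem bq (n : ℕ) (i : Fin 10) : Bq n (2 * pw i - 9 / 10) (dd (fm P) (ix i)) := by
  have o := fm_ok P
  have h := o.is
  have N := o.cmp.kc.hN
  have a : ∀ {s t f : (fm P).A}, s * t = 1 → f = s * (t * f) := fun e => by
    rw [← mul_assoc, e, one_mul]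
  fin_cases i
  exacts [bq_V n 0, bq_V n 1, bq_V n 2, bq_V n 3, bq_V n 4,
    bq_G n (β := 2 * 0 - 9 / 10) (.inl 1) (sy_nz h 1) (by norm_num)
      (a (by rw [o.cmp.nz_one, mul_comm, N])),
    bq_G n (β := 2 * 0 - 9 / 10) (.inr 1) (sy_nz h (-1)) (by norm_num)
      (a (by rw [o.cmp.nz_neg, N])),
    bq_G n (β := 2 * 0 - 9 / 10) (.inl 6) (sy_one h) (by norm_num) (one_mul _).symm,
    bq_G n (β := 2 * 0 - 9 / 10) (.inl 7) (sy_one h) (by norm_num) (one_mul _).symm,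
    bq_G n (β := 2 * -1 - 9 / 10) (.inl 5) (sy_r h) (by norm_num) (a h.hr)]

theorem fd_le (n : ℕ) : ∃ κ > 0, ∀ K : Cut (ch P), K.Is → ∀ x : (ch P).Pt, 0 ≤ (ch P).uu x →
    (ch P).rr x ^ 2 ≤ 2 * (ch P).at' K.p x →
    uq x * FD (jx x).σ.c (jx x).σ.E n (pt x) ≤ κ * qb K n 0 x := by
  choose B B0 hB using bq (P := P) n
  have s := Finset.sum_nonneg fun i (_ : i ∈ Finset.univ) => B0 i
  refine ⟨(∑ i, B i + 1) * 10 ^ n, by positivity, fun K k x u0 p => ?_⟩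
  have q : 0 ≤ qb K n 0 x := (P354XZ.Lm_nn (fm_ok P).is k x n 0 0).trans_eq (qb_eq ..).symm
  rw [FD, Finset.mul_sum, mul_assoc, add_mul, Finset.sum_mul]
  exact le_add_of_le_of_nonneg (Finset.sum_le_sum fun i _ => hB i K k x u0 p) (by positivity)

theorem farq_of {m : ℕ} (b : Big 0 P m) (hc : CUT P) (h : FARS P m) :
    FARQ P (GT P m) (P354IF.Gam P) (P.n0 + 6) := by
  obtain ⟨K, T, ck⟩ := hc
  have f := form b.ok (GT_anti P m) gam_nn
  obtain ⟨κ, κ0, hκ⟩ := fd_le (P := P) (P.n0 + 6)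
  obtain ⟨Rm, h⟩ := h K T ck (P.n0 + 6) 0 (P.n0 + 6 + P.g + 1) (by have := b.hm; omega) (by omega)
  obtain ⟨R0, r1, r2⟩ : ∃ R0, Rm ≤ R0 ∧ P.c.R1 + 3 ≤ 4 * R0 :=
    ⟨max Rm ((P.c.R1 + 3) / 4), le_max_left _ _, by
      linarith [le_max_right Rm ((P.c.R1 + 3) / 4)]⟩
  obtain ⟨R1, B, B0, h⟩ := h R0 r1
  refine ⟨P.n0 + 6 + P.g + 1, 4 * R0, R1, κ * B, r2, by positivity, fun Rc => ?_⟩
  obtain ⟨C, C0, h⟩ := h (max R0 (4 * (2 * Rc + 1))) (le_max_left _ _)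
  refine ⟨0, κ * C, by positivity, (h.and ((ev_R _ (2 * Rc + 2)).filter_mono inf_le_left)).mono
    fun σ ⟨h, r⟩ k hk => ?_⟩
  have s : ∀ r, up (4 * R0) (4 * R0 + 1) r * dn (2 * Rc) (2 * Rc + 1) r ≠ 0 →
      4 * R0 ≤ r ∧ r ≤ 2 * Rc + 1 := fun r e =>
    ⟨le_of_not_ge fun d => e (mul_eq_zero_of_left (up_zero (lt_add_one _) d) _),
      le_of_not_ge fun d => e (mul_eq_zero_of_right _ (dn_zero (lt_add_one _) d))⟩
  have := h k hk _ (fun x => κ⁻¹ * FD σ.c σ.E (P.n0 + 6) x)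
    (St.wc_of ((r0_lt σ).trans_le r2) (lt_add_one _) (lt_add_one _) (by linarith))
    (fun r => ⟨mul_nonneg (up_nonneg ..) (dn_nonneg ..),
      mul_le_one₀ (P354XT.up_le ..) (dn_nonneg ..) (dn_le ..)⟩) (fun r e => (s r e).1)
    (continuousOn_const.mul (continuousOn_finsetSum _ fun _ _ => cf_q _ _ _))
    fun x e1 e2 e3 e4 e5 e6 => by
      have q := s _ e4
      have t : 2 ≤ P.c.t1 := σ.ok.t1
      have := hκ K ck.cut x (by
        rw [(fm_ok P).uu_eq]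
        exact add_nonneg (by linarith) (div_nonneg (by positivity)
          (by linarith [q.1, r0_lt σ, σ.r0_pos]))) (ck.p3 x (by
        rw [(fm_ok P).rr_eq, e3]; linarith [le_max_right R0 (4 * (2 * Rc + 1)), q.2]))
      rw [e1] at this
      rw [mul_left_comm, inv_mul_le_iff₀ κ0]
      exact this
  simp only [sj_mul] at this
  rw [sm_mul, inv_mul_le_iff₀ κ0] at this
  refine this.trans ((mul_add ..).trans_le (add_le_add ((mul_assoc ..).symm.trans_le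
    (mul_le_mul_of_nonneg_left (sm_mono _ _ fun j => ?_) (by positivity)))
    ((mul_assoc ..).symm.trans_le (mul_le_mul_of_nonneg_left (le_add_of_nonneg_right
      (sm_nn _ _ fun j => f.hn ..)) (by positivity)))))
  rw [add_comm]
  exact add_le_add (f.ym (n := P.g) (by omega) le_rfl σ j)
    (f.xm (n := P.n0 + 6 + 0) (by omega) le_rfl σ j)

theorem farq (hc : ROW fun P _ => CUT P) (h : ROW FARS) :
    ROW fun P m => FARQ P (GT P m) (P354IF.Gam P) (P.n0 + 6) :=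
  (hc.and h).mono fun _ _ b k => farq_of b k.1 k.2

end Vale.Agent.P354FW
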