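import Vale.Agent.P354IF.Def2
import Vale.Agent.P354FQ.Defs
import Vale.Agent.P354FY.Vw
import Vale.Agent.P354FS.Ptw
import Vale.Agent.P354XZ.Src

/-!
The far density against the density of the far estimate, at a point.
-/

open Set Filter

noncomputable section

namespace Vale.Agent.P354FW

open Vale.Agent.P354XG Vale.Agent.P354XD Vale.Agent.P354XR Vale.Agent.P354XI Vale.Agent.P354Z
open Vale.Agent.P354SI Vale.Agent.P354YF
open Vale.Agent.P354XZ (Ch Cut NF Gi Zf Fam Lm Lm_eq)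
open Vale.Agent.P354FA (Lt)
open Vale.Agent.P354YK (Fm)
open Vale.Agent.P354FC (lr)
open Vale.Agent.P354FQ (Ix fm fm_ok pt jx qb uq Ck)

section
variable {Φ : Fm} (h : Φ.Ok)

/-- The squares along the letters. -/
theorem q2_sl (x : h.ch.Pt) (n : ℕ) (f : Φ.A) : q2 (lr (Φ.c x.1) (Φ.E x.1)) (h.pt x) n (f x.1) ≤
    2 ^ n * h.ch.val x (h.ch.sl (n + 1) f) := by
  induction n generalizing f with
  | zero =>
    rw [zero_add, sl_one, vl_nsq h.is, pow_zero, one_mul]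
    exact le_rfl
  | succ n ih =>
    have a := vl_sl_mono (x := x) h.is (Nat.le_succ (n + 1)) f
    have b : ∑ a, h.ch.val x (h.ch.sl (n + 1) (h.ch.X a f)) ≤
        h.ch.val x (h.ch.sl (n + 1 + 1) f) := by
      rw [sl_succ (n + 1), vl_add, vl_sum, vl_nsq h.is]
      exact le_add_of_nonneg_left (sq_nonneg _)
    have c : ∑ a, q2 (lr (Φ.c x.1) (Φ.E x.1)) (h.pt x) n (lr (Φ.c x.1) (Φ.E x.1) a (f x.1)) ≤
        2 ^ n * ∑ a, h.ch.val x (h.ch.sl (n + 1) (h.ch.X a f)) := by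
      rw [Finset.mul_sum]
      exact Finset.sum_le_sum fun a _ =>
        (congrArg (q2 _ _ n) (h.X_ap a f x.1).symm).trans_le (ih (h.ch.X a f))
    have d := mul_le_mul_of_nonneg_left (add_le_add a b) (show (0 : ℝ) ≤ 2 ^ n by positivity)
    rw [P354Z.q2, pow_succ]
    linarith [ih f]

theorem nz_ap (b : ℤ) (j : Φ.J) : NF.nz h.ch b j =
    ((Units.map (Pi.evalMonoidHom (fun j => Sm (on (Φ.E j).O2)) j) h.ch.N ^ (-b) : Units _) :
      Sm (on (Φ.E j).O2)) := by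
  rw [← map_zpow]; rfl

end

section
variable {A : Type} [CommRing A] [Algebra ℂ A] {C : Ch A} (h : C.Is) {x : C.Pt}
include h

theorem mon_ge (u0 : 0 ≤ C.uu x) {a a' b e : ℝ} (ha : a' ≤ a) (b0 : 0 ≤ b) (b3 : b ≤ 3)
    (s : b + e = 14 / 5) :
    C.at' (C.mon 0 0 (14 / 5)) x * C.rr x ^ a' ≤ 8 * C.at' (C.mon a b e) x := by
  have r := one_le_rr h x
  have u := one_le_ut h x.1 (C.uu x)
  have v : C.ut x.1 (C.uu x) / 2 ≤ C.vv x.1 (C.uu x) (C.rr x) := by unfold Ch.vv; linarith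
  have e1 := Real.rpow_le_rpow_of_exponent_le r ha
  have e2 := Real.rpow_le_rpow (by positivity) v b0
  have e3 : (2 : ℝ) ^ b ≤ 8 := (Real.rpow_le_rpow_of_exponent_le one_le_two b3).trans_eq
    (by norm_num)
  rw [Real.div_rpow (by positivity) zero_le_two, div_le_iff₀ (by positivity)] at e2
  simp only [Ch.at', Ch.mon, Real.rpow_zero, one_mul]
  rw [← s, Real.rpow_add (by positivity)]
  have p1 : 0 ≤ C.vv x.1 (C.uu x) (C.rr x) ^ b := Real.rpow_nonneg (by linarith) _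
  have p2 : 0 ≤ C.ut x.1 (C.uu x) ^ e := by positivity
  have := mul_le_mul (mul_le_mul_of_nonneg_right (e2.trans (mul_le_mul_of_nonneg_left e3 p1)) p2)
    e1 (by positivity) (by positivity)
  linarith

variable {K : Cut C} (k : K.Is)
include k

theorem p_one : 1 ≤ C.at' K.p x := (k.ple _ _ (h.dom x)).1

theorem Z_ge (u0 : 0 ≤ C.uu x) (g : Gi) :
    C.at' (C.mon 0 0 (14 / 5)) x * C.rr x ^ (-2 : ℝ) ≤ 8 * C.at' (Zf C K.p 0 g) x := by
  have a : C.at' (C.mon 0 0 (14 / 5)) x * C.rr x ^ (-2 : ℝ) ≤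
      8 * C.at' (C.mon (-17 / 20) (14 / 5 - 0) 0) x :=
    mon_ge h u0 (by norm_num) (by norm_num) (by norm_num) (by norm_num)
  rcases g with g | g | g
  · exact mon_ge h u0 (a := -101 / 100) (b := 0) (e := 14 / 5 - 0) (by norm_num) le_rfl
      (by norm_num) (by norm_num)
  · exact mon_ge h u0 (a := -17 / 20) (b := 46 / 25) (e := 24 / 25 - 0) (by norm_num)
      (by norm_num) (by norm_num) (by norm_num)
  · fin_cases g
    · refine a.trans (mul_le_mul_of_nonneg_left ?_ (by norm_num))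
      exact le_mul_of_one_le_left ((P354YS.ps_mon h ..).at h x).le (p_one h k)
    · exact a

theorem D_ge (u0 : 0 ≤ C.uu x) {ρ : ℝ} (ρ1 : 1 ≤ ρ) (hp : (C.rr x / (8 * ρ)) ^ 2 ≤ 4 * C.at' K.p x)
    (i : Fin 5) : C.at' (C.mon 0 0 (14 / 5)) x * C.rr x ^ (if i.val ≤ 1 then 63 / 20 else 0 : ℝ) ≤
      2048 * ρ ^ 2 * C.at' (C.Dw K.p 0 i) x := by
  have r := rr_pos h x
  have a : C.at' (C.mon 0 0 (14 / 5)) x * C.rr x ^ (63 / 20 : ℝ) ≤
      2048 * ρ ^ 2 * C.at' (C.mon 1 0 0 * C.w K.p 0 0) x := by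
    have b := mon_ge h u0 (a := 1 + 3 / 20) (a' := 1 + 3 / 20) (b := 0 + (14 / 5 - 0))
      (e := 0 + 0) le_rfl (by norm_num) (by norm_num) (by norm_num)
    rw [← at_mon_mul h] at b
    rw [div_pow, div_le_iff₀ (by positivity)] at hp
    have c := mul_le_mul b hp (by positivity) (mul_nonneg (by norm_num)
      (mul_pos ((P354YS.ps_mon h ..).at h x) ((P354YS.ps_mon h ..).at h x)).le)
    rw [show (63 / 20 : ℝ) = 1 + 3 / 20 + (2 : ℕ) by norm_num, Real.rpow_add_natCast r.ne']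
    change _ ≤ _ * (C.at' (C.mon 1 0 0) x * (C.at' K.p x * C.at' (C.mon (3 / 20) (14 / 5 - 0) 0) x))
    linarith
  have b : ∀ i, C.Dw K.p 0 i = C.Dw 1 0 i → C.at' (C.mon 0 0 (14 / 5)) x * C.rr x ^ (0 : ℝ) ≤
      2048 * ρ ^ 2 * C.at' (C.Dw K.p 0 i) x := fun i e => by
    have := P354FS.Dw_ge h i x u0
    have p := P354XZ.D_nn h k x (l := 0) i
    rw [e] at p ⊢
    rw [Real.rpow_zero]
    nlinarith [mul_nonneg (sub_nonneg.2 (one_le_pow₀ (n := 2) ρ1)) p]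
  have d := fun i => ((P354YS.ps_Dd h (P354YL.ps_p k) 0 i).at h x).le
  fin_cases i
  · exact a.trans (mul_le_mul_of_nonneg_left (le_add_of_nonneg_right (d 0)) (by positivity))
  · exact a.trans (mul_le_mul_of_nonneg_left (le_add_of_nonneg_right (d 1)) (by positivity))
  exacts [b 2 rfl, b 3 rfl, b 4 rfl]

end

variable {P : Pr}

theorem nz_eq (b : ℤ) (j : Ix P) : NF.nz (P354IF.ch P) b j.σ = NF.nz (P354FQ.ch P) b j :=
  (nz_ap (P354IF.fam_ok P) b j.σ).trans (nz_ap (fm_ok P) b j).symm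

theorem vw_eq (w : List Lt) (k : Fin 5) (j : Ix P) : P354IF.vw P w k j.σ = P354FQ.vw P w k j := by
  refine (P354FY.Vw_ap (P354IF.fam_ok P) w k j.σ).trans
    (Eq.trans ?_ (P354FY.Vw_ap (fm_ok P) w k j).symm)
  rw [nz_eq]; rfl

theorem gq_eq (g : Gi) (j : Ix P) :
    P354IF.gq P g j.σ = ((fm P).nf.df (fm P).nf0 (P354FQ.ch P)).at g j := by
  rcases g with g | g | g <;> fin_cases g <;> rfl

/-- The density with i letters. -/
def Fi (P : Pr) (i s : ℕ) (σ : St P) (x : E6) : ℝ :=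
  ∑ s ∈ Finset.range (s + 1), ∑ w : Fin s → Lt, ∑ k : Fin 5,
      x.2.1 ^ (if k.val ≤ 1 then 63 / 20 else 0 : ℝ) *
        q2 (lr σ.c σ.E) x i (P354IF.vw P (List.ofFn w) k σ) +
    ∑ g, x.2.1 ^ (-2 : ℝ) * q2 (lr σ.c σ.E) x i (P354IF.gq P g σ)

theorem fi_le {K : Cut (P354FQ.ch P)} (k : K.Is) (i s : ℕ) (x : (P354FQ.ch P).Pt)
    (u0 : 0 ≤ (P354FQ.ch P).uu x) {ρ : ℝ} (ρ1 : 1 ≤ ρ)
    (hp : ((P354FQ.ch P).rr x / (8 * ρ)) ^ 2 ≤ 4 * (P354FQ.ch P).at' K.p x) :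
    uq x * Fi P i s (jx x).σ (pt x) ≤ 2 ^ i * (2048 * ρ ^ 2) * qb K i s x := by
  have h := (fm_ok P).is
  have e : qb K i s x = Lm K ((fm P).nf.df (fm P).nf0 (P354FQ.ch P)) (P354FQ.vw P) 0 i 0 s x := rfl
  have m : ∀ {a D : ℝ} (f : (fm P).A), 0 ≤ D →
      uq x * (P354FQ.ch P).rr x ^ a ≤ 2048 * ρ ^ 2 * D →
      uq x * ((pt x).2.1 ^ a * q2 (lr (jx x).σ.c (jx x).σ.E) (pt x) i (f (jx x))) ≤
        2 ^ i * (2048 * ρ ^ 2) * (D * (P354FQ.ch P).val x ((P354FQ.ch P).sl (i + 1) f)) :=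
    fun f D0 a => by
      rw [(fm_ok P).rr_eq] at a
      exact (mul_assoc ..).symm.trans_le ((mul_le_mul a (q2_sl (fm_ok P) x i f)
        (P354BO.q2_nonneg ..) (by positivity)).trans_eq (by ring))
  rw [e, Lm_eq h k, Fi]
  simp only [mul_add, Finset.mul_sum]
  refine add_le_add (Finset.sum_le_sum fun _ _ => Finset.sum_le_sum fun w _ =>
    Finset.sum_le_sum fun j _ => ?_) (Finset.sum_le_sum fun g _ => ?_)
  · rw [vw_eq]
    exact m _ (P354XZ.D_nn h k x j) (D_ge h k u0 ρ1 hp j)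
  · rw [gq_eq]
    have p := P354XZ.Z_nn h k x (l := 0) g
    exact m _ p ((Z_ge h k u0 g).trans (by
      nlinarith [mul_nonneg (sub_nonneg.2 (one_le_pow₀ (n := 2) ρ1)) p]))

end Vale.Agent.P354FW
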