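import Vale.Agent.P354FW.Farq
import Vale.Agent.P354FW.Cut
import Vale.Agent.P354SO.Nrt
import Vale.Agent.P354SI.Asm
import Vale.Agent.P354SO.Main
import Vale.Agent.P354XL.Fin
import Vale.Agent.P354CP.Cap
import Vale.Agent.P354CP.Loc
import Vale.Agent.P354PT.Topt
import Vale.Agent.P354RM.Fin
import Vale.Agent.P354RP.Main
import Vale.Agent.P354FX.Fx
import Vale.Agent.P354IF.Frt
import Vale.Agent.P354FQ.Main
import Vale.Agent.P354CN.Gik
import Vale.Agent.P354CO.Run
import Vale.Agent.P354CV.Sob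
import Vale.Agent.P354YK.Tmon
import Vale.Agent.P354YK.Tof
import Vale.Agent.P354FY.Far
import Vale.Agent.P354FS.Fin
import Vale.Agent.P354FC.Pw
import Vale.Agent.P354YV.Fa
import Vale.Agent.P354XL.Npw
import Vale.Agent.P354YF.Fte7

/-!
The row SYSO and the block CORE.
-/

namespace Vale.Agent.P354FW

open Vale.Agent.P354IF Vale.Agent.P354CO
open Vale.Agent.P354SI hiding Gam
open Vale.Agent.P354FQ (FARS)
open Vale.Agent.P354FC (FBX)

theorem fars : ROW FARS := P354FQ.fars_row (P354CN.gik P354CP.loc)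

theorem rows (h : FBX) : Rows fun P _ => Gam P where
  nn _ _ := gam_nn
  gdx := frt.mono fun P m b k => gdx b.ok (GT_anti P m) (P354SO.nrt b.ok) k
  fl := (cut.and fars).mono fun P m b k => fl b.ok (GT_anti P m) (farw b k.1 k.2)
  fx := P354FX.fx_of cut fars _
  fb := (farq cut fars).mono fun P m b k => h P _ _ b.ok (GT_anti P m) k
  low := ⟨0, fun _ _ b => P354XL.low_sys b.ok (P354XR.dict b.ok)⟩
  init := ⟨0, fun _ _ b => P354CP.init b.ok⟩
  unit := ⟨0, fun _ _ b => P354CP.unit b.ok⟩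

theorem syso (h : FBX) : SYSO TabE :=
  P354SO.syso (sout (fun b => P354PT.topt b (by
    cases b; exacts [P354RM.mode_neg, P354RP.mode_plus])) (rows h)) P354CP.loc P354CP.loc0

theorem core (h : FBX) (k : FTE TabE) : P354Z.CORE P354YK.FT :=
  P354YK.tof (core_of P354CV.sobc P354YK.tmon (syso h) P354FY.fxs P354CP.cap k P354FS.fse)

theorem core_ok : P354Z.CORE P354YK.FT :=
  core (P354FC.fbx_of' P354YV.asm P354XL.npw) P354YF.fte

end Vale.Agent.P354FW
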