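import Vale.Agent.P354NU.Zd
import Vale.Agent.P354YS.PhiA

/-! The time of the near chart. -/

open scoped ContDiff
open Set Filter Topology

noncomputable section

namespace Vale.Agent.P354FW

open Vale.Agent.P354n (R4)
open Vale.Agent.P354XG (E6)
open Vale.Agent.P354XD (pj)
open Vale.Agent.P354XR (rd_pj)
open Vale.Agent.P354XE (rd)
open Vale.Agent.P354XO (Om)
open Vale.Agent.P354YO (pr0 rd_lip)
open Vale.Agent.P354RN (shr)
open Vale.Agent.P354CQ Vale.Agent.P354MG Vale.Agent.P354Z Vale.Agent.P354NU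

theorem rd_near (p q : R4) : |rd p - rd q| ≤ 2 * ‖(p - q).2‖ := by
  have := rd_lip (pr0 p) (pr0 q)
  rwa [← map_sub, P354YS.pr_norm] at this

theorem mix {s u w g c : ℝ} (s0 : 0 ≤ s) (s1 : s ≤ 1) (g1 : |u - w| ≤ c) (g2 : |g| ≤ c) :
    |u + s * (w - g - u) - w| ≤ c := by
  rw [abs_le] at *
  constructor <;> nlinarith [g1.1, g1.2, g2.1, g2.2]

/-- **The field tm of Zo.** -/
theorem zon_tm {f : Fx} (o : f.Ok) (C : ℝ → ℝ) : ∃ Ct ≥ (1 : ℝ), ∃ e > 0,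
    ∀ Rs ≥ f.z.R1 + 1, ∀ Rb v k n, ∀ E ≤ e, ∀ e0, In f v Rs Rb k n C E e0 →
      ∀ x ∈ Om (f.Dh Rs v.Lv), x.2.1 ≤ f.z.R1 + 1 →
        |(f.phi v (pj (hp' f.z.M f.A f.B (shr f.H x)))).1 - (v.y (pj (shr f.H x))).1| ≤ Ct := by
  obtain ⟨a0, a1, a2, a3, a4, -⟩ := nums o
  obtain ⟨K, hK⟩ := P354YS.prim_jb (P354CV.hs_cd a0) f.z.M f.z.a
    (show f.a.r1 ≤ f.z.R1 by linarith) (f.z.R1 + 3) 0
  obtain ⟨c, hc⟩ : ∃ c, c = |C (f.z.R1 + 1)| + 1 := ⟨_, rfl⟩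
  have c0 : 1 ≤ c := hc ▸ le_add_of_nonneg_left (abs_nonneg _)
  have c1 : C (f.z.R1 + 1) ≤ c := hc ▸ (le_abs_self _).trans (le_add_of_nonneg_right zero_le_one)
  obtain ⟨m, hm⟩ : ∃ m, m = 4 * f.z.M ^ 2 / f.a.r1 := ⟨_, rfl⟩
  have m0 : 0 ≤ m := by rw [hm]; positivity
  have mm : ∀ r, f.a.r1 ≤ r → 4 * f.z.M ^ 2 / r ∈ Icc 0 m := fun r k =>
    ⟨div_nonneg (by positivity) (by linarith), hm ▸ div_le_div_of_nonneg_left (by positivity) a1 k⟩
  have h0 := o.nu.cH0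
  refine ⟨3 * f.cH + m + |K| + 5, by linarith [abs_nonneg K], min 1 ((f.z.r1 - f.a.r1) / 2) / c,
    div_pos (lt_min one_pos (by linarith)) (by linarith), fun Rs hs Rb v k n E hE e0 h x hx r => ?_⟩
  have E0 : 0 ≤ E := h.sz.1
  have l := (le_div_iff₀' (by linarith)).1 hE
  have cE : C (f.z.R1 + 1) * E ≤ c * E := by gcongr
  have E1 : E ≤ 1 := (le_mul_of_one_le_left E0 c0).trans (l.trans (min_le_left _ _))
  have r1 : f.z.r1 < x.2.1 := hx.1.2.1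
  have rs : x.2.1 < Rs := hx.1.2.2.1
  have t0 : f.t0 < x.1 := hx.1.1
  have sz : ∀ I, Sz f.z.M f.z.a f.H k (f.Dh Rs v.Lv) v.g (f.z.R1 + 1) I E E := fun I =>
    ⟨E0, le_rfl, fun y hy _ => h.sz.2.2 y ⟨hy.1, hy.2.1, hy.2.2.trans hs⟩ trivial⟩
  have n1 := (h.ny.pt _ (by linarith) x hx r E E (sz _)).1.x
  have n2 := h.ny.tm _ (by linarith) x hx r E (sz _)
  have p6 : shr f.H x ∈ P6 := ⟨show 0 < x.2.1 by linarith, hx.2⟩
  have pr := P354CS.pre f.z.M f.z.a f.A f.B o.nu.sA o.nu.sB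
  have e1 : f.S (pj (hp' f.z.M f.A f.B (shr f.H x))) = pj (shr f.H x) := by
    rw [← pj_P (pr.2.2.2.2.1 p6)]
    exact congrArg pj (pr.2.2.2.2.2.1 _).2.2.2
  have e2 := S_1 (f := f) (pr.2.2.2.2.1 p6)
  rw [e1] at e2
  have e3 : (hp' f.z.M f.A f.B (shr f.H x)).2.1 = x.2.1 := rfl
  have e4 : (pj (shr f.H x)).1 = x.1 + f.H x.2.1 := rfl
  have e5 : (shr f.H x).1 = x.1 + f.H x.2.1 := rfl
  have n3 := rd_near (v.y (pj (shr f.H x))) (pj (shr f.H x))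
  rw [rd_pj p6.1 p6.2, show (shr f.H x).2.1 = x.2.1 from rfl] at n3
  have e6 : (f.phi v (pj (hp' f.z.M f.A f.B (shr f.H x)))).1 = (hp' f.z.M f.A f.B (shr f.H x)).1 +
      Real.smoothTransition ((hp' f.z.M f.A f.B (shr f.H x)).1 - f.ti) *
        ((v.y (pj (shr f.H x))).1 - (v.A (rd (v.y (pj (shr f.H x)))) - 4 * f.z.M ^ 2 /
          rd (v.y (pj (shr f.H x)))) - (hp' f.z.M f.A f.B (shr f.H x)).1) := by
    rw [← e1]; rfl
  rw [e6]
  rw [e3, e4] at e2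
  rw [e5] at n2
  generalize (hp' f.z.M f.A f.B (shr f.H x)).1 = u at *
  generalize v.y (pj (shr f.H x)) = w at *
  have l1 := l.trans (min_le_left _ _)
  have l2 := l.trans (min_le_right _ _)
  have rr : rd w ∈ Icc f.a.r1 (f.z.R1 + 3) := by
    have := abs_le.1 n3
    constructor <;> linarith
  have b1 := (hK v.M v.a (fun r => f.A r - v.A r) (fun r => by
    simpa using (o.nu.th r).1.fun_sub (h.nth.th r).1) (by rw [h.nth.A, sub_self])
      (h.par.trans E1) _ rr).zero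
  have b2 : K * (|v.M - f.z.M| + |v.a - f.z.a|) ≤ |K| := (mul_le_mul_of_nonneg_right
    (le_abs_self K) (by positivity)).trans (mul_le_of_le_one_right (abs_nonneg K) (h.par.trans E1))
  have b3 := abs_le.1 ((Real.norm_eq_abs _ ▸ b1).trans b2)
  have b4 := abs_le.1 (o.nu.hA _ rr)
  have b5 := mm _ rr.1
  have b6 := abs_le.1 (o.nu.hA x.2.1 ⟨by linarith, by linarith⟩)
  have b7 := mm x.2.1 (by linarith)
  have b8 := abs_le.1 (o.nu.hcH x.2.1 (by linarith))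
  have s0 := Real.smoothTransition.nonneg (u - f.ti)
  have s1 := Real.smoothTransition.le_one (u - f.ti)
  have k0 := abs_nonneg K
  rcases le_total 1 (u - f.ti) with j | j
  · rw [Real.smoothTransition.one_of_one_le j]
    exact abs_le.2 ⟨by linarith [b5.1, b5.2], by linarith [b5.1, b5.2]⟩
  · have b9 : C (f.z.R1 + 1) * E * (1 + (x.1 - f.t0)) ≤ 1 * (2 * f.cH + 5) :=
      mul_le_mul (cE.trans l1) (by linarith [o.nu.hti]) (by linarith) zero_le_one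
    have b10 := abs_le.1 (n2.trans b9)
    generalize Real.smoothTransition (u - f.ti) = s at *
    have g1 : |u - w.1| ≤ 3 * f.cH + m + |K| + 5 :=
      abs_le.2 ⟨by linarith [b7.1, b7.2], by linarith [b7.1, b7.2]⟩
    have g2 : |v.A (rd w) - 4 * f.z.M ^ 2 / rd w| ≤ 3 * f.cH + m + |K| + 5 :=
      abs_le.2 ⟨by linarith [b5.1, b5.2], by linarith [b5.1, b5.2]⟩
    exact mix s0 s1 g1 g2

/-- **ZT.** -/
theorem zt : ZT := fun _ o _ C _ =>
  let ⟨K, _, e, e0, h⟩ := zon_tm o C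
  ⟨K, e, e0, fun Rs Rb v k E e1 hs _ i l => h Rs (by linarith) Rb v k _ E l e1 i⟩

end Vale.Agent.P354FW
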